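import Vale.Agent.P147.Bal.Fourier.Series

/-!
# The singularity of the renewal transform

The real part of `1 - φ` is quadratic and the derivative of the imaginary part along the height axis
is bounded below near the origin, so `|1 - φ|⁻²` is integrable as soon as there are three transverse
coordinates.
-/

open MeasureTheory Set Real
open scoped ENNReal

namespace Vale.Agent.P147.Bal.Fourier

variable {d k : ℕ}

/-- The sign of a step. -/
noncomputable def sgn (e : Step d) : ℝ := if e.2 then 1 else -1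

lemma lev_cast (e : Step d) (z : Site d) : (lev e z : ℝ) = sgn e * (z e.1 : ℝ) := by
  unfold lev sgn; split_ifs <;> simp

lemma dot_vec (a : Step d) (θ : Fin d → ℝ) : dot (vec a) θ = sgn a * θ a.1 := by
  rw [dot, Finset.sum_eq_single a.1 (fun b _ hb => by simp [vec, hb])
    (fun h => absurd (Finset.mem_univ _) h)]
  unfold vec sgn; split_ifs <;> simp

lemma sgn_cases (a : Step d) : sgn a = 1 ∨ sgn a = -1 := by
  unfold sgn; split_ifs <;> simp

lemma abs_sgn (a : Step d) : |sgn a| = 1 := by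
  rcases sgn_cases a with h | h <;> rw [h] <;> norm_num

lemma cos_sgn_mul (a : Step d) (x : ℝ) : cos (sgn a * x) = cos x := by
  rcases sgn_cases a with h | h <;> simp [h]

/-- The finitely many atoms of a walk with charged steps of mass at least `q` and a positive
derivative of the imaginary part near the origin. -/
structure Atoms (e : Step d) (F : Finset (Site d)) (c : Site d → ℝ) (q ρ κ : ℝ) : Prop where
  nonneg : ∀ z, 0 ≤ c z
  sum_le : ∑ z ∈ F, c z ≤ 1
  mem : vec e ∈ F ∧ q ≤ c (vec e)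
  lat : ∀ a : Step d, a.1 ≠ e.1 → vec a + vec e ∈ F ∧ q ≤ c (vec a + vec e)
  deriv : ∀ θ : Fin d → ℝ, (∀ i, |θ i| ≤ ρ) →
    κ ≤ ∑ z ∈ F, c z * (lev e z : ℝ) * cos (dot z θ)

lemma re_one_sub_phi (F : Finset (Site d)) (c : Site d → ℝ) (θ : Fin d → ℝ) :
    (1 - phi F c θ).re = 1 - ∑ z ∈ F, c z * cos (dot z θ) := by
  simp [phi, re_chr]

lemma im_one_sub_phi (F : Finset (Site d)) (c : Site d → ℝ) (θ : Fin d → ℝ) :
    (1 - phi F c θ).im = -∑ z ∈ F, c z * sin (dot z θ) := by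
  simp [phi, im_chr]

lemma Atoms.re_lower {e : Step d} {F : Finset (Site d)} {c : Site d → ℝ} {q ρ κ : ℝ}
    (h : Atoms e F c q ρ κ) (hq : 0 < q) (θ : Fin d → ℝ) (hθ : ∀ i, |θ i| ≤ π) :
    2 * q / (3 * π ^ 2 * d) * ∑ i, θ i ^ 2 ≤ (1 - phi F c θ).re := by
  set T := ∑ z ∈ F, c z * (1 - cos (dot z θ)) with hT
  have hTle : T ≤ (1 - phi F c θ).re := by
    rw [re_one_sub_phi, hT]
    simp only [mul_sub, mul_one, Finset.sum_sub_distrib]
    linarith [h.sum_le]
  have hge : ∀ z ∈ F, q ≤ c z → q * (1 - cos (dot z θ)) ≤ T := fun z hz hzq =>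
    (mul_le_mul_of_nonneg_right hzq (by linarith [cos_le_one (dot z θ)])).trans
      (Finset.single_le_sum (f := fun z => c z * (1 - cos (dot z θ)))
        (fun y _ => mul_nonneg (h.nonneg y) (by linarith [cos_le_one (dot y θ)])) hz)
  have he : q * (1 - cos (θ e.1)) ≤ T := by
    have := hge _ h.mem.1 h.mem.2
    rwa [dot_vec, cos_sgn_mul] at this
  have hj : ∀ j, q * (1 - cos (θ j)) ≤ 3 * T := by
    intro j
    have hT0 : 0 ≤ T := le_trans (mul_nonneg hq.le (by linarith [cos_le_one (θ e.1)])) he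
    by_cases hje : j = e.1
    · subst hje; linarith
    have h1 := hge _ (h.lat (j, true) hje).1 (h.lat (j, true) hje).2
    have h2 := hge _ (h.lat (j, false) hje).1 (h.lat (j, false) hje).2
    rw [dot_add, dot_vec, dot_vec, show sgn ((j, true) : Step d) = 1 from rfl, one_mul,
      cos_add, cos_sgn_mul] at h1
    rw [dot_add, dot_vec, dot_vec, show sgn ((j, false) : Step d) = -1 from rfl, neg_one_mul,
      cos_add, cos_neg, sin_neg, cos_sgn_mul] at h2
    have hc : 1 - cos (θ j) ≤ (1 - cos (θ e.1)) + (2 - 2 * cos (θ j) * cos (θ e.1)) := by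
      nlinarith [cos_le_one (θ e.1), neg_one_le_cos (θ j), cos_le_one (θ j), neg_one_le_cos (θ e.1)]
    have := mul_le_mul_of_nonneg_left hc hq.le
    nlinarith
  have hd : (0 : ℝ) < d := by exact_mod_cast Fin.pos e.1
  have hsum : q * (2 / π ^ 2) * ∑ i, θ i ^ 2 ≤ 3 * d * T := by
    rw [Finset.mul_sum]
    refine (Finset.sum_le_sum fun i _ => ?_).trans (le_of_eq ?_) (b := ∑ _i : Fin d, 3 * T)
    · refine le_trans ?_ (hj i)
      rw [mul_assoc]
      exact mul_le_mul_of_nonneg_left (by linarith [cos_le_one_sub_mul_cos_sq (hθ i)]) hq.le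
    · simp; ring
  refine le_trans ?_ hTle
  rw [show 2 * q / (3 * π ^ 2 * d) * ∑ i, θ i ^ 2 = q * (2 / π ^ 2) * (∑ i, θ i ^ 2) / (3 * d) by
    field_simp, div_le_iff₀ (by positivity)]
  linarith

lemma lintegral_cauchy {a κ : ℝ} (ha : 0 < a) (hκ : 0 < κ) (t₀ : ℝ) :
    ∫⁻ t, ENNReal.ofReal (1 / (a ^ 2 + κ ^ 2 * (t - t₀) ^ 2)) = ENNReal.ofReal (π / (a * κ)) := by
  have e : (fun t : ℝ => 1 / (a ^ 2 + κ ^ 2 * (t - t₀) ^ 2)) =
      fun t => (fun u => (a ^ 2)⁻¹ * (1 + (κ / a * u) ^ 2)⁻¹) (t - t₀) := by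
    funext t; field_simp
  have hi : Integrable (fun u => (a ^ 2)⁻¹ * (1 + (κ / a * u) ^ 2)⁻¹) :=
    ((integrable_inv_one_add_sq.comp_mul_left' (div_ne_zero hκ.ne' ha.ne'))).const_mul _
  rw [← ofReal_integral_eq_lintegral_ofReal (by rw [e]; exact hi.comp_sub_right t₀)
    (ae_of_all _ fun t => by positivity)]
  congr 1
  rw [e, integral_sub_right_eq_self (fun u => (a ^ 2)⁻¹ * (1 + (κ / a * u) ^ 2)⁻¹),
    integral_const_mul, Measure.integral_comp_mul_left (fun x => (1 + x ^ 2)⁻¹),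
    integral_univ_inv_one_add_sq, abs_of_pos (by positivity), smul_eq_mul]
  field_simp

/-- A function with derivative of fixed sign bounded below grows linearly from some point. -/
lemma exists_linear_lower {g g' : ℝ → ℝ} {ρ κ σ : ℝ} (hρ : 0 ≤ ρ) (hσ : |σ| = 1) (hκ : 0 ≤ κ)
    (hg : ∀ t, HasDerivAt g (g' t) t) (h' : ∀ t ∈ Icc (-ρ) ρ, κ ≤ σ * g' t) :
    ∃ t₀, ∀ t ∈ Icc (-ρ) ρ, κ ^ 2 * (t - t₀) ^ 2 ≤ g t ^ 2 := by
  have hc : Continuous g := continuous_iff_continuousAt.2 fun t => (hg t).continuousAt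
  obtain ⟨t₀, ht₀, hmin⟩ := (isCompact_Icc (a := -ρ) (b := ρ)).exists_isMinOn
    (nonempty_Icc.2 (by linarith)) hc.abs.continuousOn
  refine ⟨t₀, fun t ht => ?_⟩
  have hder : ∀ x y, x ∈ Icc (-ρ) ρ → y ∈ Icc (-ρ) ρ → x ≤ y →
      κ * (y - x) ≤ σ * g y - σ * g x := by
    intro x y hx hy hxy
    refine Convex.mul_sub_le_image_sub_of_le_deriv (convex_Icc (-ρ) ρ)
      (hc.const_mul σ).continuousOn
      (fun t _ => ((hg t).const_mul σ).differentiableAt.differentiableWithinAt) ?_ x hx y hy hxy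
    intro u hu
    rw [((hg u).const_mul σ).deriv]
    exact h' u (interior_subset hu)
  have h1 : κ * |t - t₀| ≤ |g t - g t₀| := by
    rw [← one_mul |g t - g t₀|, ← hσ, ← abs_mul, mul_sub]
    rcases le_total t₀ t with h | h
    · rw [abs_of_nonneg (sub_nonneg.2 h)]
      exact (hder t₀ t ht₀ ht h).trans (le_abs_self _)
    · rw [abs_of_nonpos (sub_nonpos.2 h), neg_sub, abs_sub_comm]
      exact (hder t t₀ ht ht₀ h).trans (le_abs_self _)
  have hm : |g t₀| ≤ |g t| := hmin ht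
  have h2 : |g t - g t₀| ≤ |g t| := by
    by_cases h0 : g t₀ = 0
    · simp [h0]
    have hs : 0 ≤ g t * g t₀ := by
      by_contra hneg
      have hz : (0 : ℝ) ∈ uIcc (g t₀) (g t) := by
        rw [mem_uIcc]
        rcases lt_or_gt_of_ne h0 with h3 | h3
        · left; exact ⟨h3.le, le_of_not_gt fun h4 => hneg (mul_nonneg_of_nonpos_of_nonpos h4.le h3.le)⟩
        · right; exact ⟨le_of_not_gt fun h4 => hneg (mul_nonneg h4.le h3.le), h3.le⟩
      obtain ⟨z, hz, hgz⟩ := intermediate_value_uIcc hc.continuousOn hz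
      have : |g t₀| ≤ |g z| := hmin ((uIcc_subset_Icc ht₀ ht) hz)
      rw [hgz, abs_zero] at this
      exact h0 (abs_nonpos_iff.1 this)
    rw [← sq_le_sq]
    nlinarith [sq_le_sq.2 hm]
  calc κ ^ 2 * (t - t₀) ^ 2 = (κ * |t - t₀|) ^ 2 := by rw [mul_pow, sq_abs]
    _ ≤ |g t| ^ 2 := pow_le_pow_left₀ (by positivity) (h1.trans h2) 2
    _ = g t ^ 2 := sq_abs _

lemma ae_box_bound (d : ℕ) : ∀ᵐ θ ∂box d, ∀ i, |θ i| ≤ π ∧ θ i ≠ 0 := by
  refine ae_all_iff.2 fun i => ?_
  have h : ∀ᵐ t : ℝ ∂volume.restrict (Icc (-π) π), |t| ≤ π ∧ t ≠ 0 := by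
    filter_upwards [ae_restrict_mem measurableSet_Icc,
      ae_restrict_of_ae (Measure.ae_ne volume 0)] with t ht ht0
    exact ⟨abs_le.2 ht, ht0⟩
  exact (Measure.quasiMeasurePreserving_eval (fun _ : Fin d => volume.restrict (Icc (-π) π)) i).ae h

/-- The singular product is integrable on the box. -/
lemma lintegral_prod_rpow_lt_top (k : ℕ) {r : ℝ} (hr : r < 1) :
    ∫⁻ x, ENNReal.ofReal (∏ j, |x j| ^ (-r)) ∂box k < ⊤ := by
  have h1 : Integrable (fun t : ℝ => |t| ^ (-r)) (volume.restrict (Icc (-π) π)) := by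
    have hp : IntervalIntegrable (fun t : ℝ => |t| ^ (-r)) volume 0 π := by
      refine (intervalIntegral.intervalIntegrable_rpow' (a := 0) (b := π)
        (by linarith : -1 < -r)).congr ?_
      intro t ht
      rw [uIoc_of_le pi_pos.le] at ht
      simp [abs_of_pos ht.1]
    have hn : IntervalIntegrable (fun t : ℝ => |t| ^ (-r)) volume (-π) 0 := by
      have := ((IntervalIntegrable.iff_comp_neg (f := fun t : ℝ => |t| ^ (-r)) (by simp)).1 hp).symm
      simpa using this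
    have := (intervalIntegrable_iff_integrableOn_Icc_of_le (by linarith [pi_pos])).1 (hn.trans hp)
    exact this
  have h2 : Integrable (fun x : Fin k → ℝ => ∏ j, |x j| ^ (-r)) (box k) :=
    Integrable.fintype_prod (fun _ => h1)
  exact h2.lintegral_lt_top

lemma Atoms.slice {i : Fin (k + 1)} {b : Bool} {F : Finset (Site (k + 1))}
    {c : Site (k + 1) → ℝ} {q ρ κ : ℝ} (h : Atoms (i, b) F c q ρ κ)
    (hq : 0 < q) (hρ : 0 < ρ) (hκ : 0 < κ)
    (x : Fin k → ℝ) (hx : ∀ j, |x j| ≤ π ∧ x j ≠ 0) (hk : 0 < k) :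
    let c₀ := 2 * q / (3 * π ^ 2 * (k + 1 : ℕ))
    ∫⁻ t, ENNReal.ofReal (1 / Complex.normSq (1 - phi F c (i.insertNth t x)))
        ∂volume.restrict (Icc (-π) π) ≤
      ENNReal.ofReal (1 / (c₀ * ρ ^ 2) ^ 2 * (2 * π)) +
        ENNReal.ofReal (π / (c₀ * κ) * (1 / ∑ j, x j ^ 2)) := by
  intro c₀
  set σ := sgn ((i, b) : Step (k + 1))
  have hc₀ : 0 < c₀ := by positivity
  have hs : 0 < ∑ j, x j ^ 2 := by
    let j₀ : Fin k := ⟨0, hk⟩
    exact lt_of_lt_of_le (by have := (hx j₀).2; positivity : (0:ℝ) < x j₀ ^ 2)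
      (Finset.single_le_sum (f := fun j => x j ^ 2) (fun _ _ => sq_nonneg _) (Finset.mem_univ j₀))
  set R : Site (k + 1) → ℝ := fun z => ∑ j, (z (i.succAbove j) : ℝ) * x j
  have hdot : ∀ z t, dot z (i.insertNth t x) = (z i : ℝ) * t + R z := fun z t => by
    simp [dot, Fin.sum_univ_succAbove _ i, R]
  set g : ℝ → ℝ := fun t => ∑ z ∈ F, c z * sin ((z i : ℝ) * t + R z) with hg
  set g' : ℝ → ℝ := fun t => ∑ z ∈ F, c z * (cos ((z i : ℝ) * t + R z) * (z i : ℝ)) with hg'
  have hgd : ∀ t, HasDerivAt g (g' t) t := fun t => by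
    rw [hg, hg']
    refine HasDerivAt.fun_sum fun z _ => ?_
    refine HasDerivAt.const_mul _ ?_
    simpa using (((hasDerivAt_id t).const_mul (z i : ℝ)).add_const (R z)).sin
  have ht₀ : ∃ t₀, (∀ j, |x j| ≤ ρ) → ∀ t ∈ Icc (-ρ) ρ, κ ^ 2 * (t - t₀) ^ 2 ≤ g t ^ 2 := by
    by_cases hin : ∀ j, |x j| ≤ ρ
    · obtain ⟨t₀, ht₀⟩ := exists_linear_lower (g := g) (g' := g') (σ := σ) hρ.le
        (abs_sgn _) hκ.le hgd fun t ht => by
          refine (h.deriv (i.insertNth t x) fun l => ?_).trans (le_of_eq ?_)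
          · refine Fin.succAboveCases i ?_ (fun j => ?_) l
            · simpa using abs_le.2 ht
            · simpa using hin j
          · rw [hg', Finset.mul_sum]
            exact Finset.sum_congr rfl fun z _ => by rw [lev_cast, hdot]; ring
      exact ⟨t₀, fun _ => ht₀⟩
    · exact ⟨0, fun h' => absurd h' hin⟩
  obtain ⟨t₀, ht₀⟩ := ht₀
  set a := c₀ * ∑ j, x j ^ 2
  have ha : 0 < a := by positivity
  have key : ∀ t ∈ Icc (-π) π,
      ENNReal.ofReal (1 / Complex.normSq (1 - phi F c (i.insertNth t x))) ≤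
        ENNReal.ofReal (1 / (c₀ * ρ ^ 2) ^ 2) +
          ENNReal.ofReal (1 / (a ^ 2 + κ ^ 2 * (t - t₀) ^ 2)) := by
    intro t ht
    set θ : Fin (k + 1) → ℝ := i.insertNth t x
    have hθ : ∀ l, |θ l| ≤ π := fun l => Fin.succAboveCases i (by simpa [θ] using abs_le.2 ht)
      (fun j => by simpa [θ] using (hx j).1) l
    have hre := h.re_lower hq θ hθ
    have hsum : ∑ l, θ l ^ 2 = t ^ 2 + ∑ j, x j ^ 2 := by simp [θ, Fin.sum_univ_succAbove _ i]
    rw [hsum] at hre
    change c₀ * _ ≤ _ at hre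
    rw [Complex.normSq_apply]
    by_cases hin : (∀ j, |x j| ≤ ρ) ∧ |t| ≤ ρ
    · refine le_add_of_nonneg_of_le zero_le' (ENNReal.ofReal_le_ofReal ?_)
      refine one_div_le_one_div_of_le (by positivity) (add_le_add ?_ ?_)
      · have : a ≤ (1 - phi F c θ).re := le_trans (by
          show c₀ * _ ≤ _
          nlinarith [sq_nonneg t]) hre
        nlinarith
      · refine (ht₀ hin.1 t (abs_le.1 hin.2)).trans (le_of_eq ?_)
        rw [im_one_sub_phi, hg]
        simp only [θ, hdot]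
        ring
    · refine le_add_of_le_of_nonneg (ENNReal.ofReal_le_ofReal ?_) zero_le'
      have hbig : ρ ^ 2 ≤ t ^ 2 + ∑ j, x j ^ 2 := by
        rcases not_and_or.1 hin with h' | h'
        · push_neg at h'
          obtain ⟨j, hj⟩ := h'
          have := Finset.single_le_sum (f := fun j => x j ^ 2) (fun _ _ => sq_nonneg _)
            (Finset.mem_univ j)
          nlinarith [sq_nonneg t, sq_abs (x j)]
        · nlinarith [sq_abs t, not_le.1 h']
      refine one_div_le_one_div_of_le (by positivity) ?_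
      have : c₀ * ρ ^ 2 ≤ (1 - phi F c θ).re := le_trans (by nlinarith) hre
      nlinarith [mul_self_nonneg ((1 - phi F c θ).im), mul_pos hc₀ (pow_pos hρ 2)]
  refine (setLIntegral_mono (by fun_prop) key).trans ?_
  rw [lintegral_add_left measurable_const]
  refine add_le_add (le_of_eq ?_) ((setLIntegral_le_lintegral _ _).trans
    (le_of_eq ((lintegral_cauchy ha hκ t₀).trans ?_)))
  · rw [lintegral_const, Measure.restrict_apply_univ, Real.volume_Icc,
      ← ENNReal.ofReal_mul (by positivity)]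
    congr 1; ring
  · congr 1; simp only [a]; field_simp

/-- The inverse square of `1 - φ` has a bounded integral, uniformly in the atoms. -/
theorem exists_integral_bound (hd : 4 ≤ d) (e : Step d) {q ρ κ : ℝ} (hq : 0 < q) (hρ : 0 < ρ)
    (hκ : 0 < κ) : ∃ I : ℝ≥0∞, I ≠ ⊤ ∧ ∀ F c, Atoms e F c q ρ κ →
      ∫⁻ θ, ENNReal.ofReal (1 / Complex.normSq (1 - phi F c θ)) ∂box d ≤ I := by
  obtain ⟨k, rfl⟩ : ∃ k, d = k + 1 := ⟨d - 1, by omega⟩
  obtain ⟨i, b⟩ := e
  set c₀ := 2 * q / (3 * π ^ 2 * (k + 1 : ℕ)) with hc₀'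
  have hc₀ : 0 < c₀ := by positivity
  have hk : (0 : ℝ) < k := by exact_mod_cast (show 0 < k by omega)
  set r : ℝ := 2 / k with hr'
  have hr : r < 1 := by
    rw [hr', div_lt_one hk]; exact_mod_cast (show 2 < k by omega)
  set K := π / (c₀ * κ) with hK'
  have hK : 0 ≤ K := by positivity
  refine ⟨∫⁻ x, (ENNReal.ofReal (1 / (c₀ * ρ ^ 2) ^ 2 * (2 * π)) +
    ENNReal.ofReal K * ENNReal.ofReal (∏ j, |x j| ^ (-r))) ∂box k, ?_, fun F c h => ?_⟩
  · rw [lintegral_add_left measurable_const, lintegral_const_mul _ (by fun_prop)]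
    refine ENNReal.add_ne_top.2 ⟨?_, ENNReal.mul_ne_top ENNReal.ofReal_ne_top
      (lintegral_prod_rpow_lt_top k hr).ne⟩
    rw [lintegral_const]
    exact ENNReal.mul_ne_top ENNReal.ofReal_ne_top (measure_ne_top _ _)
  have hm : Measurable fun θ : Fin (k + 1) → ℝ =>
      ENNReal.ofReal (1 / Complex.normSq (1 - phi F c θ)) := by
    unfold phi chr dot; fun_prop
  have hmp := measurePreserving_piFinSuccAbove
    (fun _ : Fin (k + 1) => volume.restrict (Icc (-π) π)) i
  rw [box, ← hmp.symm.lintegral_comp hm]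
  refine (le_of_eq (lintegral_prod_symm _ (hm.comp hmp.symm.measurable).aemeasurable)).trans ?_
  refine lintegral_mono_ae ?_
  filter_upwards [ae_box_bound k] with x hx
  refine (le_of_eq ?_).trans ((h.slice hq hρ hκ x hx (by omega)).trans (add_le_add le_rfl ?_))
  · rfl
  rw [← ENNReal.ofReal_mul hK]
  refine ENNReal.ofReal_le_ofReal (mul_le_mul_of_nonneg_left ?_ hK)
  have hpos : ∀ j, 0 < |x j| := fun j => abs_pos.2 (hx j).2
  have hP : 0 < ∏ j, |x j| ^ r := Finset.prod_pos fun j _ => rpow_pos_of_pos (hpos j) r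
  have hkey : ∏ j, |x j| ^ r ≤ ∑ j, x j ^ 2 := by
    have := Real.geom_mean_le_arith_mean Finset.univ (fun _ => (1 : ℝ)) (fun j => x j ^ 2)
      (fun _ _ => zero_le_one) (by simpa using hk) (fun j _ => sq_nonneg _)
    simp only [Finset.sum_const, Finset.card_univ, Fintype.card_fin, nsmul_eq_mul, mul_one,
      Real.rpow_one, one_mul] at this
    have e2 : ∏ j, |x j| ^ r = (∏ j, x j ^ 2) ^ ((k : ℝ)⁻¹) := by
      rw [← Real.finsetProd_rpow _ _ (fun j _ => sq_nonneg _)]
      refine Finset.prod_congr rfl fun j _ => ?_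
      rw [← sq_abs (x j), ← Real.rpow_natCast, ← Real.rpow_mul (abs_nonneg _)]
      congr 1
    rw [e2]
    refine this.trans (div_le_self (Finset.sum_nonneg fun j _ => sq_nonneg _) ?_)
    exact_mod_cast (show 1 ≤ k by omega)
  rw [one_div]
  refine (inv_anti₀ hP hkey).trans (le_of_eq ?_)
  rw [← Finset.prod_inv_distrib]
  exact Finset.prod_congr rfl fun j _ => (Real.rpow_neg (hpos j).le r).symm

end Vale.Agent.P147.Bal.Fourier
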