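import Vale.Agent.P147.Bal.Defs

/-!
# Characters of the lattice and the transform of the partial renewal sums

For finitely many atoms the transform of the partial renewal sum is the geometric sum of the
transform of the atoms, and Parseval bounds its squared coefficients by the integral of the square.
-/

open MeasureTheory Set Real
open scoped ENNReal

namespace Vale.Agent.P147.Bal.Fourier

variable {d : ℕ}

/-- The pairing of a site with an angle. -/
noncomputable def dot (z : Site d) (θ : Fin d → ℝ) : ℝ := ∑ i, (z i : ℝ) * θ i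

/-- The character of a site. -/
noncomputable def chr (z : Site d) (θ : Fin d → ℝ) : ℂ := Complex.exp ((dot z θ : ℂ) * Complex.I)

/-- The uniform measure on the box of angles. -/
noncomputable def box (d : ℕ) : Measure (Fin d → ℝ) :=
  Measure.pi fun _ => volume.restrict (Icc (-π) π)

instance : IsFiniteMeasure (box d) := by
  unfold box; infer_instance

lemma dot_add (a b : Site d) (θ : Fin d → ℝ) : dot (a + b) θ = dot a θ + dot b θ := by
  simp [dot, add_mul, Finset.sum_add_distrib]

lemma chr_zero (θ : Fin d → ℝ) : chr (0 : Site d) θ = 1 := by simp [chr, dot]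

lemma chr_add (a b : Site d) (θ : Fin d → ℝ) : chr (a + b) θ = chr a θ * chr b θ := by
  rw [chr, chr, chr, ← Complex.exp_add, dot_add]; congr 1; push_cast; ring

lemma norm_chr (z : Site d) (θ : Fin d → ℝ) : ‖chr z θ‖ = 1 := Complex.norm_exp_ofReal_mul_I _

lemma re_chr (z : Site d) (θ : Fin d → ℝ) : (chr z θ).re = cos (dot z θ) :=
  Complex.exp_ofReal_mul_I_re _

lemma im_chr (z : Site d) (θ : Fin d → ℝ) : (chr z θ).im = sin (dot z θ) :=
  Complex.exp_ofReal_mul_I_im _

lemma continuous_dot (z : Site d) : Continuous (dot z) := by unfold dot; fun_prop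

lemma continuous_chr (z : Site d) : Continuous (chr z) := by unfold chr dot; fun_prop

lemma chr_prod (z : Site d) (θ : Fin d → ℝ) :
    chr z θ = ∏ i, Complex.exp (((z i : ℝ) : ℂ) * Complex.I * (θ i : ℂ)) := by
  rw [chr, dot, ← Complex.exp_sum]; congr 1; push_cast; rw [Finset.sum_mul]
  exact Finset.sum_congr rfl fun i _ => by ring

lemma integral_exp_int (n : ℤ) :
    ∫ t, Complex.exp (((n : ℝ) : ℂ) * Complex.I * (t : ℂ)) ∂volume.restrict (Icc (-π) π) =
      if n = 0 then ((2 * π : ℝ) : ℂ) else 0 := by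
  rw [MeasureTheory.integral_Icc_eq_integral_Ioc,
    ← intervalIntegral.integral_of_le (by linarith [pi_pos])]
  split_ifs with h
  · subst h; simp; ring
  · rw [integral_exp_mul_complex (by simp [h, Complex.I_ne_zero])]
    have : Complex.exp (((n : ℝ) : ℂ) * Complex.I * ((π : ℝ) : ℂ)) =
        Complex.exp (((n : ℝ) : ℂ) * Complex.I * ((-π : ℝ) : ℂ)) := by
      rw [Complex.exp_eq_exp_iff_exists_int]
      exact ⟨n, by push_cast; ring⟩
    rw [this, sub_self, zero_div]

lemma integral_chr (z : Site d) :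
    ∫ θ, chr z θ ∂box d = if z = 0 then (((2 * π) ^ d : ℝ) : ℂ) else 0 := by
  simp only [chr_prod, box]
  refine (integral_fintype_prod_eq_prod (𝕜 := ℂ)
    (fun i (t : ℝ) => Complex.exp (((z i : ℝ) : ℂ) * Complex.I * (t : ℂ)))).trans ?_
  simp only [integral_exp_int]
  split_ifs with h
  · subst h; simp
  · obtain ⟨i, hi⟩ := Function.ne_iff.1 h
    exact Finset.prod_eq_zero (Finset.mem_univ i) (if_neg hi)

lemma integrable_chr (z : Site d) : Integrable (chr z) (box d) :=
  Integrable.mono' (integrable_const 1) (continuous_chr z).aestronglyMeasurable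
    (ae_of_all _ fun θ => (norm_chr z θ).le)

/-- Parseval for a trigonometric polynomial with real coefficients. -/
lemma parseval (Y : Finset (Site d)) (C : Site d → ℝ) :
    ENNReal.ofReal ((2 * π) ^ d * ∑ y ∈ Y, C y ^ 2) =
      ∫⁻ θ, ENNReal.ofReal (‖∑ y ∈ Y, (C y : ℂ) * chr y θ‖ ^ 2) ∂box d := by
  set S := fun θ => ∑ y ∈ Y, (C y : ℂ) * chr y θ
  have hneg : ∀ (y : Site d) θ, (starRingEnd ℂ) (chr y θ) = chr (-y) θ := fun y θ => by
    rw [chr, chr, ← Complex.exp_conj, map_mul, Complex.conj_ofReal, Complex.conj_I,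
      show dot (-y) θ = -dot y θ by simp [dot, neg_mul]]
    push_cast; ring_nf
  have he : ∀ θ, ((‖S θ‖ ^ 2 : ℝ) : ℂ) =
      ∑ a ∈ Y, ∑ b ∈ Y, ((C a * C b : ℝ) : ℂ) * chr (-a + b) θ := fun θ => by
    rw [Complex.ofReal_pow, ← Complex.conj_mul']
    simp only [S, map_sum, map_mul, Complex.conj_ofReal, hneg, Finset.sum_mul_sum, chr_add]
    exact Finset.sum_congr rfl fun a _ => Finset.sum_congr rfl fun b _ => by push_cast; ring
  have hi : ∀ a b, Integrable (fun θ => ((C a * C b : ℝ) : ℂ) * chr (-a + b) θ) (box d) :=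
    fun a b => (integrable_chr _).const_mul _
  have hI : Integrable (fun θ => ((‖S θ‖ ^ 2 : ℝ) : ℂ)) (box d) := by
    simp only [he]
    exact integrable_finsetSum _ fun a _ => integrable_finsetSum _ fun b _ => hi a b
  have hR : Integrable (fun θ => ‖S θ‖ ^ 2) (box d) :=
    hI.re.congr (ae_of_all _ fun θ => Complex.ofReal_re _)
  rw [← ofReal_integral_eq_lintegral_ofReal hR (ae_of_all _ fun θ => sq_nonneg _)]
  congr 1
  apply Complex.ofReal_injective
  rw [← integral_complex_ofReal]
  simp only [he]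
  rw [integral_finsetSum _ fun a _ => integrable_finsetSum _ fun b _ => hi a b]
  simp only [integral_finsetSum _ fun b _ => hi _ b, integral_const_mul, integral_chr,
    neg_add_eq_zero, mul_ite, mul_zero, Finset.sum_ite_eq]
  push_cast
  rw [Finset.mul_sum]
  exact Finset.sum_congr rfl fun a ha => by rw [if_pos ha]; ring

/-- The partial renewal coefficients of finitely many atoms. -/
def coef (F : Finset (Site d)) (c : Site d → ℝ) : ℕ → Site d → ℝ
  | 0 => 0
  | M + 1 => fun y => (if y = 0 then 1 else 0) + ∑ z ∈ F, c z * coef F c M (y - z)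

/-- The sites charged by the partial renewal coefficients. -/
def supp (F : Finset (Site d)) : ℕ → Finset (Site d)
  | 0 => ∅
  | M + 1 => insert 0 ((F ×ˢ supp F M).image fun p => p.1 + p.2)

/-- The transform of the atoms. -/
noncomputable def phi (F : Finset (Site d)) (c : Site d → ℝ) (θ : Fin d → ℝ) : ℂ :=
  ∑ z ∈ F, (c z : ℂ) * chr z θ

lemma coef_eq_zero (F : Finset (Site d)) (c : Site d → ℝ) :
    ∀ M y, y ∉ supp F M → coef F c M y = 0
  | 0, _, _ => rfl
  | M + 1, y, h => by
    simp only [supp, Finset.mem_insert, Finset.mem_image, Finset.mem_product, not_or] at h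
    simp only [coef, h.1, if_false, zero_add]
    refine Finset.sum_eq_zero fun z hz => ?_
    rw [coef_eq_zero F c M (y - z) fun hy => h.2 ⟨(z, y - z), ⟨hz, hy⟩, add_sub_cancel _ _⟩,
      mul_zero]

lemma coef_nonneg {F : Finset (Site d)} {c : Site d → ℝ} (hc : ∀ z, 0 ≤ c z) :
    ∀ M y, 0 ≤ coef F c M y
  | 0, _ => le_rfl
  | M + 1, _ => add_nonneg (by split_ifs <;> norm_num)
      (Finset.sum_nonneg fun z _ => mul_nonneg (hc z) (coef_nonneg hc M _))

lemma sum_coef_chr (F : Finset (Site d)) (c : Site d → ℝ) (θ : Fin d → ℝ) :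
    ∀ M, ∑ y ∈ supp F M, (coef F c M y : ℂ) * chr y θ = ∑ n ∈ Finset.range M, phi F c θ ^ n
  | 0 => by simp [supp]
  | M + 1 => by
    have key : ∀ z ∈ F, ∑ y ∈ supp F (M + 1), (coef F c M (y - z) : ℂ) * chr y θ =
        chr z θ * ∑ u ∈ supp F M, (coef F c M u : ℂ) * chr u θ := fun z hz => by
      have hsub : (supp F M).map (addLeftEmbedding z) ⊆ supp F (M + 1) := by
        intro y hy
        obtain ⟨u, hu, rfl⟩ := Finset.mem_map.1 hy
        exact Finset.mem_insert_of_mem (Finset.mem_image.2 ⟨(z, u), Finset.mk_mem_product hz hu, rfl⟩)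
      rw [← Finset.sum_subset hsub, Finset.sum_map, Finset.mul_sum]
      · refine Finset.sum_congr rfl fun u _ => ?_
        simp only [addLeftEmbedding_apply, add_sub_cancel_left, chr_add]; ring
      · intro y _ hy
        rw [coef_eq_zero F c M (y - z) fun h => hy (Finset.mem_map.2 ⟨y - z, h, by simp⟩)]
        simp
    rw [geom_sum_succ, ← sum_coef_chr F c θ M]
    simp only [coef, Complex.ofReal_add, Complex.ofReal_sum, Complex.ofReal_mul, add_mul,
      Finset.sum_add_distrib, Finset.sum_mul]
    rw [Finset.sum_comm]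
    simp only [mul_assoc, ← Finset.mul_sum]
    rw [Finset.sum_eq_single (0 : Site d) (fun y _ hy => by simp [hy])
      (fun h => absurd (show (0 : Site d) ∈ supp F (M + 1) from Finset.mem_insert_self _ _) h)]
    have h2 : ∑ z ∈ F, (c z : ℂ) * ∑ y ∈ supp F (M + 1), (coef F c M (y - z) : ℂ) * chr y θ =
        ∑ z ∈ F, (c z : ℂ) * (chr z θ * ∑ u ∈ supp F M, (coef F c M u : ℂ) * chr u θ) :=
      Finset.sum_congr rfl fun z hz => by rw [key z hz]
    rw [h2]
    simp [chr_zero, phi, add_comm, Finset.sum_mul, mul_assoc]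

end Vale.Agent.P147.Bal.Fourier
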